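import Vale.Agent.P207.N4.Dim
import Vale.Agent.P207.Q.H545.Step5

/-!
# P207, line N4: `Vale.Agent.P207.Q.H545.Rf` is general in the dimension and is used unchanged
-/
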